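import Vale.Agent.P365.T2.H862.BadSum
import Vale.Agent.P365.T2.H179.Adm
import Vale.Agent.P365.V4.FlowLoss548b

/-!
# P365-T2, X-ONEASM, averages of the bad sites (helper259)

`ZB lam A E w W` = the sites which do not move or whose resonance is in bad position (862).
`AvG (Σ_{z ∈ ZB} e_z Σ_k Mf)` is at most the static share plus `CBE` times the off-resonant energy.
-/

set_option linter.all false

namespace P365T2.H259

open P365L P365O P365T1 Vale.Agent.P365.J376 P365T2.H862 P365T2.H179 MeasureTheory Set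
open P365L.T2.Path
open scoped ENNReal

section one

variable {ι : Type*} [Fintype ι] [DecidableEq ι]

open Classical in
/-- sites which do not move or are in bad position -/
noncomputable def ZB (lam : ℝ) (A : Matrix ι ι ℝ) (E : ℝ) (w : ι → ℝ) (W : ι → ℂ) : Finset ι :=
  Finset.univ.filter fun z => w z = 0 ∨ pz A W E z ∉ GdL lam

variable {A : Matrix ι ι ℝ} {lam E : ℝ}

theorem mem_ZB {w : ι → ℝ} {W : ι → ℂ} {z : ι} :
    z ∈ ZB lam A E w W ↔ w z = 0 ∨ pz A W E z ∉ GdL lam := by
  classical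
  unfold ZB
  simp

theorem measurable_pzW (z : ι) : Measurable fun W : ι → ℂ => pz A W E z := by
  unfold pz sz sg
  have hG : Measurable fun W : ι → ℂ => Gr A W z z := P365L.T2.X968.measurable_GrW z z
  have hz : Measurable fun W : ι → ℂ => W z := measurable_pi_apply z
  have h1 : Measurable fun W : ι → ℂ => ((W z).im : ℂ) :=
    Complex.measurable_ofReal.comp (Complex.measurable_im.comp hz)
  exact ((hz.sub hG.inv).sub (h1.mul_const _)).add_const _

/-- membership in `ZB` is a measurable event -/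
theorem measurableSet_ZB (w : ι → ℝ) (z : ι) :
    MeasurableSet {W : ι → ℂ | z ∈ ZB lam A E w W} := by
  by_cases h : w z = 0
  · have : {W : ι → ℂ | z ∈ ZB lam A E w W} = Set.univ := by
      ext W
      simp [mem_ZB, h]
    rw [this]
    exact MeasurableSet.univ
  · have : {W : ι → ℂ | z ∈ ZB lam A E w W} = ((fun W : ι → ℂ => pz A W E z) ⁻¹' GdL lam)ᶜ := by
      ext W
      simp [mem_ZB, h]
    rw [this]
    exact ((measurable_pzW z) (measurableSet_GdL lam)).compl

theorem MfBad_nonneg {W : ι → ℂ} (hW : ∀ x, (W x).im < 0) (f : ι → ℝ) (z : ι) :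
    0 ≤ MfBad lam A W E f z := by
  unfold MfBad
  split_ifs
  · exact le_rfl
  · exact Mf_nonneg hW f z

theorem MfBad_le {W : ι → ℂ} (hW : ∀ x, (W x).im < 0) (f : ι → ℝ) (z : ι) :
    MfBad lam A W E f z ≤ Mf A W f z := by
  unfold MfBad
  split_ifs
  · exact Mf_nonneg hW f z
  · exact le_rfl

theorem integrable_MfBad (hA : A.IsSymm) (m : Measure (ι → ℝ)) [IsFiniteMeasure m] (E : ℝ)
    {e : ι → ℝ} (he : ∀ x, 0 < e x) (f : ι → ℝ) (z : ι) :
    Integrable (fun v => MfBad lam A (WV E e v) E f z) m := by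
  refine Integrable.mono' (integrable_Mf hA m E he f z)
    (measurable_MfBad_WV E e f z).aestronglyMeasurable (Filter.Eventually.of_forall fun v => ?_)
  rw [Real.norm_eq_abs, abs_of_nonneg (MfBad_nonneg (WV_neg he v) f z)]
  exact MfBad_le (WV_neg he v) f z

/-- one site, real form of 862's `lint_bad_site` -/
theorem Ex_MfBad_le (hA : A.IsSymm) {e : ι → ℝ} (he : ∀ x, 0 < e x)
    (ν : ι → Measure ℝ) [∀ i, IsProbabilityMeasure (ν i)] (f : ι → ℝ) {z : ι} {a b : ℝ}
    (hz : EdgeLaw lam a b (ν z)) :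
    Ex ν E e (fun W => MfBad lam A W E f z) ≤ CBE lam b E * Ex ν E e (fun W => Yf A W f z) := by
  have hCB : 0 ≤ CBE lam b E := by
    have := hz.lam_pos
    have := hz.b_pos
    unfold CBE CB
    positivity
  have h := lint_bad_site hA he ν f hz (E := E)
  have h1 := ofReal_integral_eq_lintegral_ofReal (integrable_MfBad (lam := lam) hA (Measure.pi ν) E he f z)
    (Filter.Eventually.of_forall fun v => MfBad_nonneg (WV_neg he v) f z)
  have h2 := ofReal_integral_eq_lintegral_ofReal (integrable_Yf hA (Measure.pi ν) E he f z)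
    (Filter.Eventually.of_forall fun v => Yf_nonneg (WV_neg he v) f z)
  rw [← h1, ← h2, ← ENNReal.ofReal_mul hCB] at h
  have h3 : 0 ≤ ∫ v, Yf A (WV E e v) f z ∂(Measure.pi ν) :=
    integral_nonneg fun v => Yf_nonneg (WV_neg he v) f z
  exact (ENNReal.ofReal_le_ofReal_iff (mul_nonneg hCB h3)).1 h

end one

section av

variable {ι : Type*} [Fintype ι] [DecidableEq ι] {A : Matrix ι ι ℝ} {Λ : Type*} [Fintype Λ]
  {p : Λ → ℝ} {ν : Λ → Measure ℝ} {E lam : ℝ} {κ : Type*} [Fintype κ] {F : κ → ι → ℝ}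

/-- energy of the sites in `ZB` -/
noncomputable def BadF (lam : ℝ) (A : Matrix ι ι ℝ) (E : ℝ) (F : κ → ι → ℝ) (w : ι → ℝ)
    (W : ι → ℂ) : ℝ :=
  ∑ z ∈ ZB lam A E w W, (-(W z).im) * ∑ k, Mf A W (F k) z

theorem BadF_nonneg {w : ι → ℝ} {W : ι → ℂ} (hW : ∀ x, (W x).im < 0) :
    0 ≤ BadF lam A E F w W :=
  Finset.sum_nonneg fun z _ => mul_nonneg (by linarith [hW z])
    (Finset.sum_nonneg fun k _ => Mf_nonneg hW _ _)

/-- pathwise bound: `e = u + w` -/
theorem BadF_le {u w : ι → ℝ} {W : ι → ℂ} (hW : ∀ x, (W x).im < 0)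
    (he : ∀ z, -(W z).im = u z + w z) (hu : ∀ z, 0 ≤ u z) (hw : ∀ z, 0 ≤ w z) :
    BadF lam A E F w W ≤ ∑ z, u z * ∑ k, Mf A W (F k) z +
      ∑ z, w z * ∑ k, MfBad lam A W E (F k) z := by
  classical
  unfold BadF
  rw [← Finset.sum_add_distrib]
  have h0 : ∀ z, 0 ≤ ∑ k, Mf A W (F k) z := fun z => Finset.sum_nonneg fun k _ => Mf_nonneg hW _ _
  have h1 : ∀ z, 0 ≤ ∑ k, MfBad lam A W E (F k) z := fun z =>
    Finset.sum_nonneg fun k _ => MfBad_nonneg hW _ _
  calc ∑ z ∈ ZB lam A E w W, (-(W z).im) * ∑ k, Mf A W (F k) z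
      ≤ ∑ z ∈ ZB lam A E w W, (u z * ∑ k, Mf A W (F k) z +
          w z * ∑ k, MfBad lam A W E (F k) z) := by
        refine Finset.sum_le_sum fun z hz => ?_
        rw [he z, add_mul]
        refine add_le_add le_rfl ?_
        rcases mem_ZB.1 hz with h | h
        · rw [h, zero_mul, zero_mul]
        · refine mul_le_mul_of_nonneg_left (le_of_eq ?_) (hw z)
          refine Finset.sum_congr rfl fun k _ => ?_
          unfold MfBad
          rw [if_neg h]
    _ ≤ _ := Finset.sum_le_sum_of_subset_of_nonneg (Finset.subset_univ _) fun z _ _ =>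
        add_nonneg (mul_nonneg (hu z) (h0 z)) (mul_nonneg (hw z) (h1 z))

/-- **`bad`, averaged**: static share plus `CBE` times the off-resonant energy -/
theorem AvG_BadF_le (hA : A.IsSymm) [∀ k, IsProbabilityMeasure (ν k)] (hp : ∀ k, 0 ≤ p k)
    {u w : (ι → Λ) → ι → ℝ} (he : ∀ l x, 0 < u l x + w l x) (hu : ∀ l x, 0 ≤ u l x)
    (hw : ∀ l x, 0 ≤ w l x) {a b : ℝ} (hlaw : ∀ l x, w l x ≠ 0 → EdgeLaw lam a b (ν (l x))) :
    AvG p ν E (fun l x => u l x + w l x) (fun l W => BadF lam A E F (w l) W) ≤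
      AvG p ν E (fun l x => u l x + w l x) (fun l W => ∑ x, u l x * ∑ k, Mf A W (F k) x) +
      CBE lam b E * YG A p ν E F (fun l x => u l x + w l x) w := by
  unfold AvG YG
  rw [Finset.mul_sum, ← Finset.sum_add_distrib]
  refine Finset.sum_le_sum fun l _ => ?_
  have hP : 0 ≤ ∏ x, p (l x) := Finset.prod_nonneg fun x _ => hp _
  have hi1 : Integrable (fun v => ∑ x, u l x * ∑ k, Mf A (WV E (fun x => u l x + w l x) v) (F k) x)
      (Measure.pi fun x => ν (l x)) :=
    integrable_finset_sum _ fun x _ => (integrable_finset_sum _ fun k _ =>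
      integrable_Mf hA _ E (he l) (F k) x).const_mul _
  have hi2 : Integrable (fun v => ∑ x, w l x *
      ∑ k, MfBad lam A (WV E (fun x => u l x + w l x) v) E (F k) x)
      (Measure.pi fun x => ν (l x)) :=
    integrable_finset_sum _ fun x _ => (integrable_finset_sum _ fun k _ =>
      integrable_MfBad hA _ E (he l) (F k) x).const_mul _
  have h1 : Ex (fun x => ν (l x)) E (fun x => u l x + w l x) (fun W => BadF lam A E F (w l) W) ≤
      Ex (fun x => ν (l x)) E (fun x => u l x + w l x)
        (fun W => ∑ x, u l x * ∑ k, Mf A W (F k) x) +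
      Ex (fun x => ν (l x)) E (fun x => u l x + w l x)
        (fun W => ∑ x, w l x * ∑ k, MfBad lam A W E (F k) x) := by
    unfold Ex
    rw [← integral_add hi1 hi2]
    refine integral_mono_of_nonneg (Filter.Eventually.of_forall fun v =>
      BadF_nonneg (WV_neg (he l) v)) (hi1.add hi2) (Filter.Eventually.of_forall fun v => ?_)
    refine BadF_le (WV_neg (he l) v) (fun z => ?_) (hu l) (hw l)
    simp [WV]
  have h2 : Ex (fun x => ν (l x)) E (fun x => u l x + w l x)
        (fun W => ∑ x, w l x * ∑ k, MfBad lam A W E (F k) x) ≤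
      CBE lam b E * ∑ x, w l x * ∑ k, Ex (fun x => ν (l x)) E (fun x => u l x + w l x)
        (fun W => Yf A W (F k) x) := by
    have e1 : Ex (fun x => ν (l x)) E (fun x => u l x + w l x)
        (fun W => ∑ x, w l x * ∑ k, MfBad lam A W E (F k) x) =
        ∑ x, w l x * ∑ k, Ex (fun x => ν (l x)) E (fun x => u l x + w l x)
          (fun W => MfBad lam A W E (F k) x) := by
      unfold Ex
      rw [integral_finset_sum _ fun x _ => (integrable_finset_sum _ fun k _ =>
        integrable_MfBad hA _ E (he l) (F k) x).const_mul _]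
      refine Finset.sum_congr rfl fun x _ => ?_
      rw [integral_const_mul, integral_finset_sum _ fun k _ =>
        integrable_MfBad hA _ E (he l) (F k) x]
    rw [e1, Finset.mul_sum]
    refine Finset.sum_le_sum fun x _ => ?_
    by_cases hx : w l x = 0
    · rw [hx, zero_mul, zero_mul, mul_zero]
    · rw [mul_left_comm]
      refine mul_le_mul_of_nonneg_left ?_ (hw l x)
      rw [Finset.mul_sum]
      exact Finset.sum_le_sum fun k _ =>
        Ex_MfBad_le hA (he l) (fun x => ν (l x)) (F k) (hlaw l x hx)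
  calc (∏ x, p (l x)) * Ex (fun x => ν (l x)) E (fun x => u l x + w l x)
        (fun W => BadF lam A E F (w l) W)
      ≤ (∏ x, p (l x)) * (Ex (fun x => ν (l x)) E (fun x => u l x + w l x)
          (fun W => ∑ x, u l x * ∑ k, Mf A W (F k) x) +
          CBE lam b E * ∑ x, w l x * ∑ k, Ex (fun x => ν (l x)) E (fun x => u l x + w l x)
            (fun W => Yf A W (F k) x)) :=
        mul_le_mul_of_nonneg_left (h1.trans (add_le_add le_rfl h2)) hP
    _ = _ := by ring

end av

end P365T2.H259
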