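import Vale.Agent.P365.T2.OneWire905
import Vale.Agent.P365.T2.H179.Adm

/-!
# P365-T2, X-ONEASM: the functionals of the one-time theorem, pathwise (helper259)

`MobV`, `OmV`, `JV`, `MV`, `LamV`, `SmV`, `BadV` are explicit formulas for 905's `MobE`, `Om`, `JS`,
`MS`, `LamS`, `BadE` of the datum `datOf A W ..` (with `Mv = univ`), as functions of the complex
potential `W`; they are admissible (179's `Adm`) if the bad set `Z W` is measurable.
-/

set_option linter.all false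

namespace P365T2.H259

open P365L hiding Adm
open P365O P365T1 P365T2.H179 P365T2.H905 P365L.T2.Path MeasureTheory Set

section defs

variable {ι κ : Type*} [Fintype ι] [DecidableEq ι] [Fintype κ]

/-- squared distance of the family -/
noncomputable def dF (F : κ → ι → ℝ) (x y : ι) : ℝ := ∑ k, (F k x - F k y) ^ 2

/-- mean squared jump of the row `v` -/
noncomputable def vF (A : Matrix ι ι ℝ) (F : κ → ι → ℝ) (W : ι → ℂ) (v : ι) : ℝ :=
  ∑ x, PP A W v x * dF F v x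

/-- mean jump of the row `v` -/
noncomputable def lF (A : Matrix ι ι ℝ) (F : κ → ι → ℝ) (W : ι → ℂ) (v : ι) : ℝ :=
  ∑ x, PP A W v x * Real.sqrt (dF F v x)

/-- the row `v` is mobile -/
def Mbl (A : Matrix ι ι ℝ) (F : κ → ι → ℝ) (θ : ℝ) (W : ι → ℂ) (v : ι) : Prop :=
  0 < vF A F W v ∧ θ * vF A F W v ≤ lF A F W v ^ 2

/-- energy of the row `v`, `e_v m_v V_v` -/
noncomputable def eng (A : Matrix ι ι ℝ) (F : κ → ι → ℝ) (W : ι → ℂ) (v : ι) : ℝ :=
  (-(W v).im) * mm A W v * vF A F W v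

open Classical in
/-- energy of the mobile rows -/
noncomputable def MobV (A : Matrix ι ι ℝ) (F : κ → ι → ℝ) (om : ι → ℝ) (θ : ℝ) (W : ι → ℂ) : ℝ :=
  ∑ v, if Mbl A F θ W v then om v * eng A F W v else 0

open Classical in
/-- mass of the weak or bad partners of the row `v` -/
noncomputable def wkm (A : Matrix ι ι ℝ) (Z : Finset ι) (ε : ℝ) (W : ι → ℂ) (v : ι) : ℝ :=
  ∑ x, if x ∈ Z ∨ kap A W v x < ε then PP A W v x else 0

open Classical in
/-- energy of the mobile rows times the mass of their weak or bad partners -/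
noncomputable def OmV (A : Matrix ι ι ℝ) (F : κ → ι → ℝ) (om : ι → ℝ) (Z : Finset ι) (θ ε : ℝ)
    (W : ι → ℂ) : ℝ :=
  ∑ v, if Mbl A F θ W v then om v * eng A F W v * wkm A Z ε W v else 0

open Classical in
/-- `J` over strong pairs of good sites -/
noncomputable def JV (A : Matrix ι ι ℝ) (F : κ → ι → ℝ) (Z : Finset ι) (ε1 : ℝ)
    (W : ι → ℂ) : ℝ :=
  ∑ j, ∑ u, ∑ x, if u ∉ Z ∧ x ∉ Z ∧ u ≠ x ∧ ε1 ≤ kap A W u x then
    (-(W u).im) * (-(W x).im) * (kap A W u x * ‖Tm A W (F j) u x‖ ^ 2) else 0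

open Classical in
/-- the loss of the good sites -/
noncomputable def MV (A : Matrix ι ι ℝ) (F : κ → ι → ℝ) (Z : Finset ι) (W : ι → ℂ) : ℝ :=
  ∑ j, ∑ x, if x ∉ Z then (-(W x).im) * (mm A W x * muf A W (F j) x ^ 2) else 0

open Classical in
/-- the middle sites of a pair -/
noncomputable def midV (A : Matrix ι ι ℝ) (Z : Finset ι) (ε1 ε2 : ℝ) (W : ι → ℂ) (w x : ι) : ℝ :=
  ∑ u, if u ∉ Z ∧ u ≠ w ∧ u ≠ x ∧ ε2 ≤ kap A W w u ∧ ε1 ≤ kap A W u x then
    (-(W u).im) * mm A W u * (kap A W w u * kap A W u x) else 0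

open Classical in
/-- `Λ` over strong pairs of good sites -/
noncomputable def LamV (A : Matrix ι ι ℝ) (F : κ → ι → ℝ) (Z : Finset ι) (ε1 ε2 : ℝ)
    (W : ι → ℂ) : ℝ :=
  ∑ j, ∑ w, ∑ x, if w ∉ Z ∧ x ∉ Z ∧ w ≠ x then
    (-(W w).im) * (-(W x).im) * (‖Tm A W (F j) w x‖ ^ 2 * midV A Z ε1 ε2 W w x) else 0

/-- the three static terms -/
noncomputable def SmV (A : Matrix ι ι ℝ) (F : κ → ι → ℝ) (Z : Finset ι) (ε1 ε2 : ℝ)
    (W : ι → ℂ) : ℝ :=
  JV A F Z ε1 W / ε1 + MV A F Z W + LamV A F Z ε1 ε2 W / (ε1 * ε2)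

/-- energy of the bad sites -/
noncomputable def BadV (A : Matrix ι ι ℝ) (F : κ → ι → ℝ) (Z : Finset ι) (W : ι → ℂ) : ℝ :=
  ∑ z ∈ Z, eng A F W z

end defs

/-! ### the same as 905's functionals -/

section eqs

variable {ι κ : Type*} [Fintype ι] [DecidableEq ι] [Fintype κ] {A : Matrix ι ι ℝ} {W : ι → ℂ}
  (hA : A.IsSymm) (hW : ∀ x, (W x).im < 0) (F : κ → ι → ℝ) (om : ι → ℝ) (h0 : ∀ x, 0 ≤ om x)
  (h1 : ∀ x, om x ≤ 1)

theorem ite_cg {α : Type*} {p q : Prop} {_ : Decidable p} {_ : Decidable q} {a b c : α}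
    (h : p ↔ q) (hab : a = b) : (if p then a else c) = if q then b else c := by
  by_cases hp : p
  · rw [if_pos hp, if_pos (h.1 hp), hab]
  · rw [if_neg hp, if_neg (fun hq => hp (h.2 hq))]

theorem vF_eq (v : ι) : vF A F W v = (datOf A W hA hW F om h0 h1).V v := rfl

theorem lF_eq (v : ι) : lF A F W v = (datOf A W hA hW F om h0 h1).l v := rfl

theorem eng_eq (v : ι) : eng A F W v =
    (datOf A W hA hW F om h0 h1).pw v * (datOf A W hA hW F om h0 h1).V v := rfl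

theorem mem_mob {θ : ℝ} {v : ι} : v ∈ (datOf A W hA hW F om h0 h1).mob Finset.univ θ ↔
    Mbl A F θ W v := by
  unfold Dat.mob Mbl
  rw [Finset.mem_filter]
  exact and_iff_right (Finset.mem_univ v)

theorem sum_mob (θ : ℝ) (G : ι → ℝ) [∀ v, Decidable (Mbl A F θ W v)] :
    ∑ v ∈ (datOf A W hA hW F om h0 h1).mob Finset.univ θ, G v =
      ∑ v, if Mbl A F θ W v then G v else 0 := by
  rw [← Finset.sum_filter]
  refine Finset.sum_congr ?_ fun _ _ => rfl
  ext v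
  rw [mem_mob hA hW F om h0 h1, Finset.mem_filter]
  exact (and_iff_right (Finset.mem_univ v)).symm

theorem MobV_eq (θ : ℝ) :
    MobV A F om θ W = (datOf A W hA hW F om h0 h1).MobE Finset.univ θ := by
  classical
  unfold MobV Dat.MobE
  rw [sum_mob hA hW F om h0 h1]
  exact Finset.sum_congr rfl fun v _ => ite_cg Iff.rfl rfl

theorem OmV_eq (Z : Finset ι) (θ ε : ℝ) :
    OmV A F om Z θ ε W = Om (datOf A W hA hW F om h0 h1) Finset.univ Z θ ε := by
  classical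
  unfold OmV Om
  rw [sum_mob hA hW F om h0 h1]
  refine Finset.sum_congr rfl fun v _ => ite_cg Iff.rfl ?_
  unfold wkm
  exact congrArg₂ (· * ·) rfl (Finset.sum_congr rfl fun x _ => ite_cg Iff.rfl rfl)

theorem JV_eq (Z : Finset ι) (ε1 : ℝ) :
    JV A F Z ε1 W = Ker.JS (datOf A W hA hW F om h0 h1) (T2of A W F) Z ε1 := by
  classical
  unfold JV Ker.JS
  exact Finset.sum_congr rfl fun j _ => Finset.sum_congr rfl fun u _ =>
    Finset.sum_congr rfl fun x _ => ite_cg Iff.rfl rfl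

theorem MV_eq (Z : Finset ι) :
    MV A F Z W = Ker.MS (datOf A W hA hW F om h0 h1) (mu2of A W F) Z := by
  classical
  unfold MV Ker.MS
  exact Finset.sum_congr rfl fun j _ => Finset.sum_congr rfl fun x _ => ite_cg Iff.rfl rfl

theorem LamV_eq (Z : Finset ι) (ε1 ε2 : ℝ) :
    LamV A F Z ε1 ε2 W = Ker.LamS (datOf A W hA hW F om h0 h1) (T2of A W F) Z ε1 ε2 := by
  classical
  unfold LamV Ker.LamS
  refine Finset.sum_congr rfl fun j _ => Finset.sum_congr rfl fun w _ =>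
    Finset.sum_congr rfl fun x _ => ite_cg Iff.rfl ?_
  unfold midV
  exact congrArg₂ (· * ·) rfl (congrArg₂ (· * ·) rfl
    (Finset.sum_congr rfl fun u _ => ite_cg Iff.rfl rfl))

theorem BadV_eq (Z : Finset ι) :
    BadV A F Z W = Ker.BadE (datOf A W hA hW F om h0 h1) Z := rfl

/-- energy of a row as energy density -/
theorem eng_eq_Mf (hA : A.IsSymm) (hW : ∀ x, (W x).im < 0) (F : κ → ι → ℝ) (z : ι) :
    eng A F W z = (-(W z).im) * ∑ k, Mf A W (F k) z := by
  have hm := (mm_pos hA hW z).ne'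
  unfold eng vF dF PP Mf
  rw [mul_assoc, Finset.mul_sum, Finset.sum_comm]
  congr 1
  refine Finset.sum_congr rfl fun x _ => ?_
  rw [Finset.mul_sum, Finset.mul_sum]
  refine Finset.sum_congr rfl fun k _ => ?_
  field_simp
  ring

theorem datOf_En : (datOf A W hA hW F om h0 h1).En = ∑ k, En A W (F k) := by
  unfold Dat.En Dat.d2 En
  rw [Finset.sum_comm (s := (Finset.univ : Finset κ))]
  refine Finset.sum_congr rfl fun x _ => ?_
  rw [Finset.sum_comm (s := (Finset.univ : Finset κ))]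
  refine Finset.sum_congr rfl fun y _ => ?_
  rw [Finset.mul_sum]
  rfl

/-- **`det`, pathwise** -/
theorem det_path (hA : A.IsSymm) (hW : ∀ x, (W x).im < 0) (F : κ → ι → ℝ) {om : ι → ℝ}
    (h0 : ∀ x, 0 ≤ om x) (h1 : ∀ x, om x ≤ 1) (Z : Finset ι) {θ δ ε1 ε2 : ℝ} (hθ : 0 < θ)
    (hδ : 0 < δ) (hε1 : 0 < ε1) (hε2 : 0 < ε2) :
    MobV A F om θ W ≤ BadV A F Z W + 8 / θ * OmV A F om Z θ ε1 W + 1 / δ * OmV A F om Z θ ε2 W +
      4608 / θ ^ 2 * (SmV A F Z ε1 ε2 W + δ / ε1 * ((∑ k, En A W (F k)) / 4)) := by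
  have h := Ker.det_le (D := datOf A W hA hW F om h0 h1) (T2 := T2of A W F)
    (mu2 := mu2of A W F) (Mv := Finset.univ) (Z := Z) hθ hδ hε1 hε2
    (fun j u x => T2of_nonneg F j u x) (datOf_TE hA hW F om h0 h1) (datOf_StatH hA hW F om h0 h1)
  rw [← MobV_eq, ← OmV_eq, ← OmV_eq, ← JV_eq, ← MV_eq, ← LamV_eq, ← BadV_eq, datOf_En] at h
  exact h

end eqs

/-! ### admissibility -/

section adm

variable {ι κ : Type*} [Fintype ι] [DecidableEq ι] [Fintype κ] {A : Matrix ι ι ℝ}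

theorem adm_e (x : ι) : Adm fun W : ι → ℂ => -(W x).im :=
  Adm.of_cont (Complex.measurable_im.comp (measurable_pi_apply x)).neg
    (contDiff_e (n := 0) x).continuous.continuousOn

theorem adm_mm (hA : A.IsSymm) (x : ι) : Adm fun W : ι → ℂ => mm A W x :=
  Adm.of_cont (P365L.T2.X968.measurable_mmW x) (contDiffOn_mm (n := 0) hA x).continuousOn

theorem adm_KK (hA : A.IsSymm) (x y : ι) : Adm fun W : ι → ℂ => KK A W x y :=
  Adm.of_cont (P365L.T2.X968.measurable_KKW x y) (contDiffOn_KK (n := 0) hA x y).continuousOn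

theorem measurable_PPW (x y : ι) : Measurable fun W : ι → ℂ => PP A W x y := by
  unfold PP
  exact ((Complex.measurable_im.comp (measurable_pi_apply y)).neg.mul
    (P365L.T2.X968.measurable_KKW x y)).div (P365L.T2.X968.measurable_mmW x)

theorem adm_PP (hA : A.IsSymm) (x y : ι) : Adm fun W : ι → ℂ => PP A W x y :=
  Adm.of_cont (measurable_PPW x y) (contDiffOn_PP (n := 0) hA x y).continuousOn

theorem adm_kap (hA : A.IsSymm) (x y : ι) : Adm fun W : ι → ℂ => kap A W x y :=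
  Adm.of_le (H := fun _ => 1) (P365L.T2.X968.measurable_kapW x y) continuousOn_const
    (fun W hW => kap_nonneg hA hW x y) (fun W hW => (kap_lt_one hA hW x y).le)

theorem adm_muf (hA : A.IsSymm) (f : ι → ℝ) (x : ι) : Adm fun W : ι → ℂ => muf A W f x := by
  have h1 : Adm fun W : ι → ℂ => ∑ y, PP A W x y * f y :=
    Adm.sum _ fun y _ => (adm_PP hA x y).mul (Adm.const (f y))
  have h2 := h1.add (Adm.const (-(f x)))
  have e : (fun W : ι → ℂ => (∑ y, PP A W x y * f y) + -f x) = fun W => muf A W f x := by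
    funext W
    rw [← sub_eq_add_neg]
    rfl
  rw [e] at h2
  exact h2

theorem continuousOn_GrW (hA : A.IsSymm) (x y : ι) :
    ContinuousOn (fun W : ι → ℂ => Gr A W x y) (LH ι) := (contDiffOn_Gr (n := 0) hA x y).continuousOn

theorem continuousOn_TmW (hA : A.IsSymm) (f : ι → ℝ) (z w : ι) :
    ContinuousOn (fun W : ι → ℂ => Tm A W f z w) (LH ι) := by
  unfold Tm
  simp only [Matrix.smul_apply, Matrix.mul_apply, Matrix.conjTranspose_apply, smul_eq_mul]
  refine continuousOn_const.mul (continuousOn_finset_sum _ fun q _ => ContinuousOn.mul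
    (continuousOn_finset_sum _ fun p _ => ContinuousOn.mul ?_ continuousOn_const)
    (continuousOn_GrW hA q w))
  exact continuous_star.comp_continuousOn (continuousOn_GrW hA p z)

theorem adm_T2 (hA : A.IsSymm) (f : ι → ℝ) (z w : ι) :
    Adm fun W : ι → ℂ => ‖Tm A W f z w‖ ^ 2 :=
  Adm.of_cont ((P365L.T2.X968.measurable_TmW z w).norm.pow_const 2)
    ((continuousOn_TmW hA f z w).norm.pow 2)

theorem adm_vF (hA : A.IsSymm) (F : κ → ι → ℝ) (v : ι) : Adm fun W : ι → ℂ => vF A F W v :=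
  Adm.sum _ fun x _ => (adm_PP hA v x).mul (Adm.const (dF F v x))

theorem adm_lF (hA : A.IsSymm) (F : κ → ι → ℝ) (v : ι) : Adm fun W : ι → ℂ => lF A F W v :=
  Adm.sum _ fun x _ => (adm_PP hA v x).mul (Adm.const (Real.sqrt (dF F v x)))

theorem adm_eng (hA : A.IsSymm) (F : κ → ι → ℝ) (v : ι) : Adm fun W : ι → ℂ => eng A F W v :=
  ((adm_e v).mul (adm_mm hA v)).mul (adm_vF hA F v)

theorem measurableSet_Mbl (hA : A.IsSymm) (F : κ → ι → ℝ) (θ : ℝ) (v : ι) :
    MeasurableSet {W : ι → ℂ | Mbl A F θ W v} := by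
  have h1 : MeasurableSet {W : ι → ℂ | 0 < vF A F W v} :=
    measurableSet_lt measurable_const (adm_vF hA F v).meas
  have h2 : MeasurableSet {W : ι → ℂ | θ * vF A F W v ≤ lF A F W v ^ 2} :=
    measurableSet_le ((adm_vF hA F v).meas.const_mul θ) ((adm_lF hA F v).meas.pow_const 2)
  exact h1.inter h2

theorem measurableSet_kap_lt (x y : ι) (ε : ℝ) :
    MeasurableSet {W : ι → ℂ | kap A W x y < ε} :=
  measurableSet_lt (P365L.T2.X968.measurable_kapW x y) measurable_const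

theorem measurableSet_kap_ge (x y : ι) (ε : ℝ) :
    MeasurableSet {W : ι → ℂ | ε ≤ kap A W x y} :=
  measurableSet_le measurable_const (P365L.T2.X968.measurable_kapW x y)

theorem adm_MobV (hA : A.IsSymm) (F : κ → ι → ℝ) (om : ι → ℝ) (θ : ℝ) :
    Adm (MobV A F om θ) := by
  classical
  unfold MobV
  exact Adm.sum _ fun v _ => ((adm_eng hA F v).const_mul (om v)).ite (measurableSet_Mbl hA F θ v)

variable {Z : (ι → ℂ) → Finset ι}

theorem adm_wkm (hA : A.IsSymm) (hZ : ∀ x, MeasurableSet {W | x ∈ Z W}) (ε : ℝ) (v : ι) :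
    Adm fun W => wkm A (Z W) ε W v := by
  classical
  unfold wkm
  exact Adm.sum _ fun x _ => (adm_PP hA v x).ite ((hZ x).union (measurableSet_kap_lt v x ε))

theorem adm_OmV (hA : A.IsSymm) (hZ : ∀ x, MeasurableSet {W | x ∈ Z W}) (F : κ → ι → ℝ)
    (om : ι → ℝ) (θ ε : ℝ) : Adm fun W => OmV A F om (Z W) θ ε W := by
  classical
  unfold OmV
  exact Adm.sum _ fun v _ => (((adm_eng hA F v).const_mul (om v)).mul
    (adm_wkm hA hZ ε v)).ite (measurableSet_Mbl hA F θ v)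

theorem adm_JV (hA : A.IsSymm) (hZ : ∀ x, MeasurableSet {W | x ∈ Z W}) (F : κ → ι → ℝ)
    (ε1 : ℝ) : Adm fun W => JV A F (Z W) ε1 W := by
  classical
  unfold JV
  refine Adm.sum _ fun j _ => Adm.sum _ fun u _ => Adm.sum _ fun x _ =>
    (((adm_e u).mul (adm_e x)).mul ((adm_kap hA u x).mul (adm_T2 hA (F j) u x))).ite ?_
  have h3 : MeasurableSet {W : ι → ℂ | u ≠ x} := MeasurableSet.const _
  exact (hZ u).compl.inter ((hZ x).compl.inter (h3.inter (measurableSet_kap_ge u x ε1)))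

theorem adm_MV (hA : A.IsSymm) (hZ : ∀ x, MeasurableSet {W | x ∈ Z W}) (F : κ → ι → ℝ) :
    Adm fun W => MV A F (Z W) W := by
  classical
  unfold MV
  refine Adm.sum _ fun j _ => Adm.sum _ fun x _ => Adm.ite ?_ (hZ x).compl
  have h := (adm_e x).mul ((adm_mm hA x).mul ((adm_muf hA (F j) x).mul (adm_muf hA (F j) x)))
  have e : (fun W : ι → ℂ => -(W x).im * (mm A W x * (muf A W (F j) x * muf A W (F j) x))) =
      fun W => -(W x).im * (mm A W x * muf A W (F j) x ^ 2) := by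
    funext W
    rw [pow_two]
  rw [e] at h
  exact h

theorem adm_midV (hA : A.IsSymm) (hZ : ∀ x, MeasurableSet {W | x ∈ Z W}) (ε1 ε2 : ℝ) (w x : ι) :
    Adm fun W => midV A (Z W) ε1 ε2 W w x := by
  classical
  unfold midV
  refine Adm.sum _ fun u _ => (((adm_e u).mul (adm_mm hA u)).mul
    ((adm_kap hA w u).mul (adm_kap hA u x))).ite ?_
  have h3 : MeasurableSet {W : ι → ℂ | u ≠ w} := MeasurableSet.const _
  have h4 : MeasurableSet {W : ι → ℂ | u ≠ x} := MeasurableSet.const _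
  exact (hZ u).compl.inter (h3.inter (h4.inter
    ((measurableSet_kap_ge w u ε2).inter (measurableSet_kap_ge u x ε1))))

theorem adm_LamV (hA : A.IsSymm) (hZ : ∀ x, MeasurableSet {W | x ∈ Z W}) (F : κ → ι → ℝ)
    (ε1 ε2 : ℝ) : Adm fun W => LamV A F (Z W) ε1 ε2 W := by
  classical
  unfold LamV
  refine Adm.sum _ fun j _ => Adm.sum _ fun w _ => Adm.sum _ fun x _ =>
    (((adm_e w).mul (adm_e x)).mul ((adm_T2 hA (F j) w x).mul (adm_midV hA hZ ε1 ε2 w x))).ite ?_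
  have h3 : MeasurableSet {W : ι → ℂ | w ≠ x} := MeasurableSet.const _
  exact (hZ w).compl.inter ((hZ x).compl.inter h3)

theorem adm_SmV (hA : A.IsSymm) (hZ : ∀ x, MeasurableSet {W | x ∈ Z W}) (F : κ → ι → ℝ)
    (ε1 ε2 : ℝ) : Adm fun W => SmV A F (Z W) ε1 ε2 W := by
  have h := (((adm_JV hA hZ F ε1).const_mul (1 / ε1)).add (adm_MV hA hZ F)).add
    ((adm_LamV hA hZ F ε1 ε2).const_mul (1 / (ε1 * ε2)))
  have e : (fun W => 1 / ε1 * JV A F (Z W) ε1 W + MV A F (Z W) W +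
      1 / (ε1 * ε2) * LamV A F (Z W) ε1 ε2 W) = fun W => SmV A F (Z W) ε1 ε2 W := by
    funext W
    unfold SmV
    ring
  rw [e] at h
  exact h

theorem adm_BadV (hA : A.IsSymm) (hZ : ∀ x, MeasurableSet {W | x ∈ Z W}) (F : κ → ι → ℝ) :
    Adm fun W => BadV A F (Z W) W := by
  classical
  have h : Adm fun W => ∑ z, if z ∈ Z W then eng A F W z else 0 :=
    Adm.sum _ fun z _ => (adm_eng hA F z).ite (hZ z)
  have e : (fun W => ∑ z, if z ∈ Z W then eng A F W z else 0) = fun W => BadV A F (Z W) W := by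
    funext W
    unfold BadV
    rw [Finset.sum_ite_mem, Finset.univ_inter]
  rw [e] at h
  exact h

theorem adm_Mf (hA : A.IsSymm) (f : ι → ℝ) (z : ι) : Adm fun W : ι → ℂ => Mf A W f z :=
  Adm.sum _ fun a _ => ((adm_e a).mul (adm_KK hA z a)).mul (Adm.const ((f a - f z) ^ 2))

theorem adm_En (hA : A.IsSymm) (f : ι → ℝ) : Adm fun W : ι → ℂ => En A W f :=
  Adm.sum _ fun x _ => Adm.sum _ fun y _ => (((adm_e x).mul (adm_e y)).mul
    (adm_KK hA x y)).mul (Adm.const ((f x - f y) ^ 2))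

end adm

/-! ### signs -/

section sign

variable {ι κ : Type*} [Fintype ι] [DecidableEq ι] [Fintype κ] {A : Matrix ι ι ℝ} {W : ι → ℂ}

theorem PP_nonneg' (hA : A.IsSymm) (hW : ∀ x, (W x).im < 0) (x y : ι) : 0 ≤ PP A W x y :=
  div_nonneg (mul_nonneg (by linarith [hW y]) (KK_nonneg _ _)) (mm_pos hA hW x).le

theorem dF_nonneg (F : κ → ι → ℝ) (x y : ι) : 0 ≤ dF F x y :=
  Finset.sum_nonneg fun _ _ => sq_nonneg _

theorem vF_nonneg (hA : A.IsSymm) (hW : ∀ x, (W x).im < 0) (F : κ → ι → ℝ) (v : ι) :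
    0 ≤ vF A F W v :=
  Finset.sum_nonneg fun x _ => mul_nonneg (PP_nonneg' hA hW v x) (dF_nonneg F v x)

theorem eng_nonneg (hA : A.IsSymm) (hW : ∀ x, (W x).im < 0) (F : κ → ι → ℝ) (v : ι) :
    0 ≤ eng A F W v :=
  mul_nonneg (mul_nonneg (by linarith [hW v]) (mm_pos hA hW v).le) (vF_nonneg hA hW F v)

theorem MobV_nonneg (hA : A.IsSymm) (hW : ∀ x, (W x).im < 0) (F : κ → ι → ℝ) {om : ι → ℝ}
    (h0 : ∀ x, 0 ≤ om x) (θ : ℝ) : 0 ≤ MobV A F om θ W := by
  classical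
  unfold MobV
  refine Finset.sum_nonneg fun v _ => ?_
  split_ifs
  · exact mul_nonneg (h0 v) (eng_nonneg hA hW F v)
  · exact le_rfl

theorem wkm_nonneg (hA : A.IsSymm) (hW : ∀ x, (W x).im < 0) (Z : Finset ι) (ε : ℝ) (v : ι) :
    0 ≤ wkm A Z ε W v := by
  classical
  unfold wkm
  refine Finset.sum_nonneg fun x _ => ?_
  split_ifs
  · exact PP_nonneg' hA hW v x
  · exact le_rfl

theorem OmV_nonneg (hA : A.IsSymm) (hW : ∀ x, (W x).im < 0) (F : κ → ι → ℝ) {om : ι → ℝ}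
    (h0 : ∀ x, 0 ≤ om x) (Z : Finset ι) (θ ε : ℝ) : 0 ≤ OmV A F om Z θ ε W := by
  classical
  unfold OmV
  refine Finset.sum_nonneg fun v _ => ?_
  split_ifs
  · exact mul_nonneg (mul_nonneg (h0 v) (eng_nonneg hA hW F v)) (wkm_nonneg hA hW Z ε v)
  · exact le_rfl

theorem JV_nonneg (hA : A.IsSymm) (hW : ∀ x, (W x).im < 0) (F : κ → ι → ℝ) (Z : Finset ι)
    (ε1 : ℝ) : 0 ≤ JV A F Z ε1 W := by
  classical
  unfold JV
  refine Finset.sum_nonneg fun j _ => Finset.sum_nonneg fun u _ =>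
    Finset.sum_nonneg fun x _ => ?_
  split_ifs
  · exact mul_nonneg (mul_nonneg (by linarith [hW u]) (by linarith [hW x]))
      (mul_nonneg (kap_nonneg hA hW u x) (sq_nonneg _))
  · exact le_rfl

theorem MV_nonneg (hA : A.IsSymm) (hW : ∀ x, (W x).im < 0) (F : κ → ι → ℝ) (Z : Finset ι) :
    0 ≤ MV A F Z W := by
  classical
  unfold MV
  refine Finset.sum_nonneg fun j _ => Finset.sum_nonneg fun x _ => ?_
  by_cases hx : x ∉ Z
  · rw [if_pos hx]
    exact mul_nonneg (by linarith [hW x]) (mul_nonneg (mm_pos hA hW x).le (sq_nonneg _))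
  · rw [if_neg hx]

theorem midV_nonneg (hA : A.IsSymm) (hW : ∀ x, (W x).im < 0) (Z : Finset ι) (ε1 ε2 : ℝ)
    (w x : ι) : 0 ≤ midV A Z ε1 ε2 W w x := by
  classical
  unfold midV
  refine Finset.sum_nonneg fun u _ => ?_
  split_ifs
  · exact mul_nonneg (mul_nonneg (by linarith [hW u]) (mm_pos hA hW u).le)
      (mul_nonneg (kap_nonneg hA hW w u) (kap_nonneg hA hW u x))
  · exact le_rfl

theorem LamV_nonneg (hA : A.IsSymm) (hW : ∀ x, (W x).im < 0) (F : κ → ι → ℝ) (Z : Finset ι)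
    (ε1 ε2 : ℝ) : 0 ≤ LamV A F Z ε1 ε2 W := by
  classical
  unfold LamV
  refine Finset.sum_nonneg fun j _ => Finset.sum_nonneg fun w _ =>
    Finset.sum_nonneg fun x _ => ?_
  split_ifs
  · exact mul_nonneg (mul_nonneg (by linarith [hW w]) (by linarith [hW x]))
      (mul_nonneg (sq_nonneg _) (midV_nonneg hA hW Z ε1 ε2 w x))
  · exact le_rfl

theorem SmV_nonneg (hA : A.IsSymm) (hW : ∀ x, (W x).im < 0) (F : κ → ι → ℝ) (Z : Finset ι)
    {ε1 ε2 : ℝ} (h1 : 0 ≤ ε1) (h2 : 0 ≤ ε2) : 0 ≤ SmV A F Z ε1 ε2 W :=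
  add_nonneg (add_nonneg (div_nonneg (JV_nonneg hA hW F Z ε1) h1) (MV_nonneg hA hW F Z))
    (div_nonneg (LamV_nonneg hA hW F Z ε1 ε2) (mul_nonneg h1 h2))

theorem BadV_nonneg (hA : A.IsSymm) (hW : ∀ x, (W x).im < 0) (F : κ → ι → ℝ) (Z : Finset ι) :
    0 ≤ BadV A F Z W := Finset.sum_nonneg fun z _ => eng_nonneg hA hW F z

end sign

end P365T2.H259
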