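import Vale.Agent.P365.T2.XDefs629
import Vale.Agent.P365.T2.H259.BadAv
import Vale.Agent.P365.T2.H259.OneV
import Vale.Agent.P365.H219.LFlow

/-!
# P365-T2, X-ONEASM: the averaged functionals of the one-time theorem over `StW` (helper259)

`OmX`, `SmX`, `BadX` = averages per site of `OmV`, `SmV`, `BadV`, metric of the truncated field
`fR N (nJ C1 S)`, weights `omX`, bad set `ZB` (sites which do not move or whose resonance is in bad
position).
-/

set_option linter.all false

namespace P365T2.H259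

open P365L hiding Adm
open P365O P365T1 P365L.TL P365T2.H179 P365T2.H905 P365L.T2.Path MeasureTheory Set
open Vale.Agent.P365.J376 P365H219 P365T2.H213 P365T2.H320U P365T2.X629 P365T2.H862

section stw

variable {N : ℕ} [NeZero N]

/-- the bad set of a labelled state -/
noncomputable def ZX (W : StW N) (lam E : ℝ) (l : Tor N → W.Λ) (V : Tor N → ℂ) : Finset (Tor N) :=
  ZB lam (AT N) E (W.w l) V

/-- energy of the mobile rows times the mass of their weak or bad partners -/
noncomputable def OmX (W : StW N) (lam E C1 θ ε τ : ℝ) : ℝ :=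
  (W.Av E τ fun l V => OmV (AT N) (fR N (nJ C1 W.S)) (omX W τ l) (ZX W lam E l V) θ ε V) /
    (N : ℝ) ^ 2

/-- the three static terms -/
noncomputable def SmX (W : StW N) (lam E C1 ε1 ε2 τ : ℝ) : ℝ :=
  (W.Av E τ fun l V => SmV (AT N) (fR N (nJ C1 W.S)) (ZX W lam E l V) ε1 ε2 V) / (N : ℝ) ^ 2

/-- energy of the bad sites -/
noncomputable def BadX (W : StW N) (lam E C1 τ : ℝ) : ℝ :=
  (W.Av E τ fun l V => BadV (AT N) (fR N (nJ C1 W.S)) (ZX W lam E l V) V) / (N : ℝ) ^ 2

theorem measurableSet_ZX (W : StW N) (lam E : ℝ) (l : Tor N → W.Λ) (x : Tor N) :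
    MeasurableSet {V : Tor N → ℂ | x ∈ ZX W lam E l V} := measurableSet_ZB (W.w l) x

variable {W : StW N} {lam E C1 η : ℝ}

theorem laws (h : W.Ok lam E C1 η) : Laws W.p W.ν lam := ⟨h.p_nonneg, h.p_sum, h.prob, h.supp⟩

theorem omX_nonneg (h : W.Ok lam E C1 η) (τ : ℝ) (l : Tor N → W.Λ) (x : Tor N) :
    0 ≤ omX W τ l x := div_nonneg (stw_w_nonneg h τ l x) (stw_e_pos h τ l x).le

theorem omX_le (h : W.Ok lam E C1 η) (τ : ℝ) (l : Tor N → W.Λ) (x : Tor N) :
    omX W τ l x ≤ 1 := (div_le_one (stw_e_pos h τ l x)).2 (stw_w_le_e h τ l x)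

/-- the mobile energy as an average of `MobV` -/
theorem MobX_eq (h : W.Ok lam E C1 η) (θ τ : ℝ) : MobX W E C1 θ τ =
    (W.Av E τ fun l V => MobV (AT N) (fR N (nJ C1 W.S)) (omX W τ l) θ V) / (N : ℝ) ^ 2 := by
  classical
  haveI := h.prob
  unfold MobX
  congr 1
  rw [MobG_eq_AvG (AT_symm N) (stw_e_pos h τ)]
  unfold StW.Av AvG
  refine Finset.sum_congr rfl fun l _ => ?_
  congr 1
  unfold Ex
  congr 1
  funext v
  unfold MobV
  refine Finset.sum_congr rfl fun x _ => ?_
  have hW := WV_neg (E := E) (stw_e_pos h τ l) v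
  have him : -(WV E (eT W.u W.w τ l) v x).im = eT W.u W.w τ l x := by
    rw [WV_im0]; ring
  have e1 : v2 (AT N) (WV E (eT W.u W.w τ l) v) (fR N (nJ C1 W.S)) x =
      vF (AT N) (fR N (nJ C1 W.S)) (WV E (eT W.u W.w τ l) v) x := by
    unfold v2 vF d2 dF
    refine Finset.sum_congr rfl fun y _ => ?_
    congr 1
    exact Finset.sum_congr rfl fun k _ => by ring
  have e2 : l1 (AT N) (WV E (eT W.u W.w τ l) v) (fR N (nJ C1 W.S)) x =
      lF (AT N) (fR N (nJ C1 W.S)) (WV E (eT W.u W.w τ l) v) x := by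
    unfold l1 lF d2 dF
    refine Finset.sum_congr rfl fun y _ => ?_
    congr 2
    exact Finset.sum_congr rfl fun k _ => by ring
  unfold mobc Mbl eng
  rw [e1, e2, him]
  have hv := vF_nonneg (AT_symm N) hW (fR N (nJ C1 W.S)) x
  set V := vF (AT N) (fR N (nJ C1 W.S)) (WV E (eT W.u W.w τ l) v) x with hV
  have ho : omX W τ l x * eT W.u W.w τ l x = wT W.w τ l x := by
    unfold omX
    rw [div_mul_cancel₀ _ (stw_e_pos h τ l x).ne']
  rcases hv.lt_or_eq with h0 | h0
  · by_cases hm : θ * V ≤ lF (AT N) (fR N (nJ C1 W.S)) (WV E (eT W.u W.w τ l) v) x ^ 2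
    · rw [if_pos hm, if_pos ⟨h0, hm⟩, ← ho]
      ring
    · rw [if_neg hm, if_neg fun hh => hm hh.2, mul_zero]
  · rw [← h0]
    simp

end stw

end P365T2.H259
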