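import Vale.Agent.P365.T2.H259.Det
import Vale.Agent.P365.T2.H629.MobFact
import Vale.Agent.P365.T2.H963.XFin
import Vale.Agent.P365.T2.H784.Lip

/-!
# P365-T2, X-ONEASM: the final instance `OneX` (helper259)

`oneX_of` : `OneX lam E C1` (963) from the resampling fact `ResF` (968, 216, 863) and the weak
content fact `OmF` (179, 883); the fields `mob` (629) and `det` (here) are theorems.
-/

set_option linter.all false

namespace P365T2.X629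

open P365L P365O P365T1 P365L.TL Matrix Complex MeasureTheory Filter Topology Set
open Vale.Agent.P365.J376 P365H219 P365T2.H213 P365T2.H320U
open scoped ComplexConjugate ENNReal

/-- `OneFacts2.mob` for the states (629's `mob_fact` with the bound `θ ≤ 1`) -/
theorem mob_fact1 (ρ : ℝ) (hρ : 0 < ρ) : ∃ θ : ℝ, 0 < θ ∧ θ ≤ 1 ∧ ∃ C : ℝ, 0 < C ∧
    ∀ {lam E C1 : ℝ} (s : Sta lam E C1), s.Gr ≤ C * s.Mob θ + ρ * s.En := by
  set q : ℝ := min 1 (ρ / 592) with hq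
  have hq0 : 0 < q := lt_min one_pos (by positivity)
  have hq1 : q ≤ 1 := min_le_left _ _
  have hqρ : q ≤ ρ / 592 := min_le_right _ _
  set θ : ℝ := q ^ 2 with hθ
  have hθ0 : 0 < θ := by positivity
  have hθ1 : θ ≤ 1 := by rw [hθ]; nlinarith
  have hφ : 296 * phiF θ ≤ ρ := by
    have h1 := phiF_le_sqrt hθ0
    rw [hθ, Real.sqrt_sq hq0.le] at h1
    rw [← hθ] at h1
    linarith
  refine ⟨θ / 8, by positivity, by linarith, 296 * (1 + 16 / θ), by positivity, fun {lam E C1} s => ?_⟩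
  obtain ⟨N, W, hok, τ, hτ⟩ := s
  change GrX W E τ ≤ 296 * (1 + 16 / θ) * (MobX W E C1 (θ / 8) τ + ErrX W E C1 τ) +
    ρ * EnX W E C1 τ
  haveI := hok.prob
  have he := Ok_eT_pos hok τ
  have hw := Ok_wT_nonneg hok τ
  have hwe := Ok_wT_le hok τ
  have hA := AT_symm N
  have hN : 0 < (N : ℝ) ^ 2 := by
    have : (0 : ℝ) < N := Nat.cast_pos.2 (Nat.pos_of_ne_zero (NeZero.ne N))
    positivity
  set J := nJ C1 W.S with hJ
  have h1 := GrG_le (ν := W.ν) (E := E) (a := phi N) hA hok.p_nonneg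
    (Finset.range (nL W.S)) he hw hθ0 hθ1
  have h2 := ContG_le (ν := W.ν) (E := E) (a := phi N) hA hok.p_nonneg he hwe
  have h3 := PhiG_le_uF (ν := W.ν) (E := E) (N := N) (J := J) hA hok.p_nonneg he
  have h4 := MobG_bridge (ν := W.ν) (E := E) (a := phi N) (b := fR N J) hA hok.p_nonneg he hw hwe
    (r := (4 : ℝ) ^ J) (by positivity) hθ0 hθ1 (fun x y => by
      have h5 := fR_spec (N := N) (J := J) x y
      unfold P365T2.H37.hk at h5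
      exact h5)
  rw [Fintype.card_fin] at h1
  have h6 : (0 : ℝ) ≤ phiF θ := (phiF_pos hθ0 hθ1).le
  set G := GrG (AT N) W.p W.ν E (phi N) (Finset.range (nL W.S)) (eT W.u W.w τ) (wT W.w τ)
  set Mp := MobG (AT N) W.p W.ν E (phi N) (eT W.u W.w τ) (wT W.w τ) θ
  set Mr := MobG (AT N) W.p W.ν E (fR N J) (eT W.u W.w τ) (wT W.w τ) (θ / 8) with hMr
  set Ct := ContG (AT N) W.p W.ν E (phi N) (eT W.u W.w τ) (wT W.w τ)
  set Ph := PhiG (AT N) W.p W.ν E (phi N) (eT W.u W.w τ)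
  set Pu := PhiG (AT N) W.p W.ν E (uF N J) (eT W.u W.w τ) with hPu
  set M4 := M4G (AT N) W.p W.ν E (phi N) (eT W.u W.w τ) with hM4
  have hPu0 : 0 ≤ Pu := Phi_nonneg hok (uF N J) τ
  have hM40 : 0 ≤ M4 := M4G_nonneg hok.p_nonneg he
  have hMr0 : 0 ≤ Mr := MobG_nonneg hA hok.p_nonneg he hw _
  have hY := Yg_nonneg hok (uF N J) τ
  have hU := EM_nonneg hok (g := W.u) (fun l x => (Ok_u_pos hok l x).le) τ
  -- the error
  have e1 : M4 / 4 ^ J ≤ ErrX W E C1 τ * (N : ℝ) ^ 2 := by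
    unfold ErrX
    rw [add_mul, add_mul, div_mul_cancel₀ _ hN.ne', ← hJ]
    have : 0 ≤ (16 : ℝ) ^ J * W.EM E W.u τ := mul_nonneg (by positivity) hU
    have e0 : 0 ≤ 1 / |W.S| * (N : ℝ) ^ 2 := by positivity
    have e00 : 0 ≤ 192 * 4 ^ J / (N : ℝ) * (N : ℝ) ^ 2 := by positivity
    have e2 : W.M4 E τ = M4 := rfl
    rw [e2]
    linarith
  have e3 : MobX W E C1 (θ / 8) τ * (N : ℝ) ^ 2 = Mr := by
    unfold MobX
    rw [div_mul_cancel₀ _ hN.ne']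
  have e4 : EnX W E C1 τ * (N : ℝ) ^ 2 = Pu := by
    unfold EnX
    rw [div_mul_cancel₀ _ hN.ne']
    rfl
  have e5 : GrX W E τ * (N : ℝ) ^ 2 = G := by
    unfold GrX
    rw [div_mul_cancel₀ _ hN.ne']
  refine le_of_mul_le_mul_right ?_ hN
  rw [e5, add_mul, mul_assoc, mul_assoc ρ, e4, add_mul, e3]
  have h7 : 16 / (θ * 4 ^ J) * M4 = 16 / θ * (M4 / 4 ^ J) := by
    field_simp
  rw [h7] at h4
  have hc : 0 ≤ 16 / θ := by positivity
  have hE0 : 0 ≤ ErrX W E C1 τ * (N : ℝ) ^ 2 := mul_nonneg (ErrX_nonneg hok _ _) hN.le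
  have h8 : 16 / θ * (M4 / 4 ^ J) ≤ 16 / θ * (ErrX W E C1 τ * (N : ℝ) ^ 2) :=
    mul_le_mul_of_nonneg_left e1 hc
  have h9 : phiF θ * Ct ≤ phiF θ * Pu := mul_le_mul_of_nonneg_left (h2.trans h3) h6
  have h10 : 296 * phiF θ * Pu ≤ ρ * Pu := mul_le_mul_of_nonneg_right hφ hPu0
  have h11 : 0 ≤ 16 / θ * Mr := mul_nonneg hc hMr0
  have h12 : G ≤ 74 * ((4 : ℕ) : ℝ) * (Mp + phiF θ * Ct) := h1
  push_cast at h12
  nlinarith

end P365T2.X629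

namespace P365T2.H259

open P365L hiding Adm
open P365O P365T1 P365L.TL P365T2.H179 P365T2.H905 P365L.T2.Path MeasureTheory Set
open Vale.Agent.P365.J376 P365H219 P365T2.H213 P365T2.H320U P365T2.X629 P365T2.H862
open P365T2.H24 P365T2.H798 P365T2.H963 P365T2.H784
open P365T2.H912 (Fn Fn.on)

/-- **resampling fact** (968, 216, 863): the three static terms are bounded by the loss -/
def ResF (lam E C1 : ℝ) : Prop :=
  ∀ ε1 : ℝ, 0 < ε1 → ε1 ≤ 1 → ∀ ε2 : ℝ, 0 < ε2 → ε2 ≤ 1 → ∃ C : ℝ, 0 < C ∧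
    ∀ (N : ℕ) [NeZero N] (W : StW N), W.Ok lam E C1 1 → ∀ τ ∈ Icc 0 W.S,
      SmX W lam E C1 ε1 ε2 τ ≤ C * (LossX W E C1 τ + ErrX W E C1 τ)

/-- **weak content fact** (179, 905, 784, 883) -/
def OmF (lam E C1 : ℝ) : Prop :=
  ∀ θ : ℝ, 0 < θ → θ ≤ 1 → ∃ C : ℝ, 0 < C ∧ ∀ k : ℝ, 1 ≤ k → ∃ C' : ℝ, 0 < C' ∧
    ∃ T₀ : ℝ, 1 ≤ T₀ ∧ ∀ T : ℝ, T₀ ≤ T → ∀ g : ℝ, 1 ≤ g → ∀ ε : ℝ, 0 < ε → ε ≤ 1 →
      ∀ (N : ℕ) [NeZero N] (W : StW N), W.Ok lam E C1 1 → ∀ τ ∈ Icc 0 W.S,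
        OmX W lam E C1 θ ε τ ≤ C / k * (PosX W E C1 T τ + EnX W E C1 τ) +
          C' * (ε * g) * EnX W E C1 τ + C' * FBn E C1 g N W τ + C' * ErrX W E C1 τ

theorem Csc_nonneg' {N : ℕ} [NeZero N] {W : StW N} {lam E C1 η : ℝ} (hW : W.Ok lam E C1 η)
    (A : ℝ) (ρ : ℕ) (τ : ℝ) : 0 ≤ Csc W E A ρ τ := by
  rcases lt_trichotomy A 0 with hA | hA | hA
  · refine Finset.sum_nonneg fun z _ => Av_nonneg hW τ fun l v => ?_
    have hn := WV_neg (E := E) (eT_pos' hW τ l) v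
    have h1 := PhB_nonneg (A := AT N) hn (fB z ρ)
    refine mul_nonneg ?_ (Finset.sum_nonneg fun x _ => mul_nonneg (wT_nonneg hW.w_nonneg τ l x)
      (lsB_nonneg AT_symm' hn _ x))
    rw [min_eq_right (by linarith), div_self hA.ne]
    exact zero_le_one
  · refine Finset.sum_nonneg fun z _ => Av_nonneg hW τ fun l v => ?_
    rw [hA, div_zero, zero_mul]
  · exact Csc_nonneg hW hA ρ τ

/-- **`OneX`** from the two averaged facts -/
theorem oneX_of {lam E C1 : ℝ} (hlam : 0 < lam) (hres : ResF lam E C1) (hom : OmF lam E C1) :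
    OneX lam E C1 := by
  refine ⟨Sta.Mob, fun θ ε s => OmX s.W lam E C1 θ ε s.τ,
    fun θ ε1 ε2 s => SmX s.W lam E C1 ε1 ε2 s.τ, ?_⟩
  refine
    { En0 := fun s => EnX_nonneg s.ok s.τ
      Bn0 := fun g s => ?_
      mob := fun ρ hρ => ?_
      det := fun θ hθ hθ1 => ?_
      res := fun θ hθ hθ1 ε₁ h1 h1' ε₂ h2 h2' => ?_
      om := fun θ hθ hθ1 => ?_ }
  · show 0 ≤ FBn E C1 g s.N s.W s.τ
    unfold FBn
    exact div_nonneg (Finset.sum_nonneg fun k _ => Csc_nonneg' s.ok g _ s.τ) (sq_nonneg _)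
  · obtain ⟨θ, hθ, hθ1, C, hC, h⟩ := mob_fact1 ρ hρ
    refine ⟨θ, hθ, hθ1, C, hC, fun s => ?_⟩
    have e1 := h s
    have e2 : 0 ≤ C * ErrX s.W E C1 s.τ := mul_nonneg hC.le (ErrX_nonneg s.ok s.τ)
    show GrX s.W E s.τ ≤ C * Sta.Mob θ s + ρ * EnX s.W E C1 s.τ + C * ErrX s.W E C1 s.τ
    have e3 : GrX s.W E s.τ ≤ C * Sta.Mob θ s + ρ * EnX s.W E C1 s.τ := e1
    linarith
  · refine ⟨CDet lam E θ, CDet_pos hlam E hθ, fun ε₁ h1 _ δ hδ _ ε₂ h2 _ s => ?_⟩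
    exact det_fact s.ok hlam s.τ hθ hδ h1 h2 le_rfl
  · obtain ⟨C, hC, h⟩ := hres ε₁ h1 h1' ε₂ h2 h2'
    exact ⟨C, hC, fun s => h s.N s.W s.ok s.τ s.hτ⟩
  · obtain ⟨C, hC, h⟩ := hom θ hθ hθ1
    refine ⟨C, hC, fun k hk => ?_⟩
    obtain ⟨C', hC', T₀, hT₀, h⟩ := h k hk
    exact ⟨C', hC', T₀, hT₀, fun T hT g hg ε hε hε1 s => h T hT g hg ε hε hε1 s.N s.W s.ok s.τ s.hτ⟩

end P365T2.H259
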