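import Vale.Agent.P365.T2.H259.OneDefs
import Vale.Agent.P365.T2.H798.BadM

/-!
# P365-T2, X-ONEASM: the fields `bad` and `det` over `StW` (helper259)

* `BadX_le : BadX ≤ (1 + CBE) ErrX`;
* `det_X : MobX ≤ C (SmX + δ / ε₁ EnX + ErrX + OmX ε₁ + OmX ε₂ / δ)`.
-/

set_option linter.all false

namespace P365T2.H259

open P365L hiding Adm
open P365O P365T1 P365L.TL P365T2.H179 P365T2.H905 P365L.T2.Path MeasureTheory Set
open Vale.Agent.P365.J376 P365H219 P365T2.H213 P365T2.H320U P365T2.X629 P365T2.H862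
open P365T2.H24 P365T2.H798

section stw

variable {N : ℕ} [NeZero N] {W : StW N} {lam E C1 η : ℝ}

theorem N2_pos : 0 < (N : ℝ) ^ 2 := by
  have : (0 : ℝ) < N := Nat.cast_pos.2 (Nat.pos_of_ne_zero (NeZero.ne N))
  positivity

/-! ### pieces of the union family -/

theorem Phi_uF (h : W.Ok lam E C1 η) (J : ℕ) (τ : ℝ) :
    W.Phi E (uF N J) τ = W.Phi E (phi N) τ + W.Phi E (fR N J) τ := by
  haveI := h.prob
  exact PhiG_elim (AT_symm N) (stw_e_pos h τ) (phi N) (fR N J)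

theorem Phi_nonneg' (h : W.Ok lam E C1 η) {κ : Type} [Fintype κ] (F : κ → Tor N → ℝ) (τ : ℝ) :
    0 ≤ W.Phi E F τ := by
  unfold StW.Phi
  exact PhiG_nonneg h.p_nonneg fun l x => (stw_e_pos h τ l x).le

theorem Phi_fR_le (h : W.Ok lam E C1 η) (J : ℕ) (τ : ℝ) :
    W.Phi E (fR N J) τ ≤ W.Phi E (uF N J) τ := by
  rw [Phi_uF h]
  linarith [Phi_nonneg' h (phi N) τ]

theorem Yg_nonneg (h : W.Ok lam E C1 η) {κ : Type} [Fintype κ] (F : κ → Tor N → ℝ) (τ : ℝ) :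
    0 ≤ W.Yg E F τ := YG_nonneg h.p_nonneg (stw_e_pos h τ) (stw_w_nonneg h τ)

theorem Yg_fR_le (h : W.Ok lam E C1 η) (J : ℕ) (τ : ℝ) :
    W.Yg E (fR N J) τ ≤ W.Yg E (uF N J) τ := by
  have h1 : W.Yg E (uF N J) τ = W.Yg E (phi N) τ + W.Yg E (fR N J) τ := YG_elim (phi N) (fR N J)
  rw [h1]
  linarith [Yg_nonneg h (phi N) τ]

theorem LossF_nonneg (h : W.Ok lam E C1 η) {κ : Type} [Fintype κ] (F : κ → Tor N → ℝ) (τ : ℝ) :
    0 ≤ W.LossF E F τ := LossG_nonneg (AT_symm N) h.p_nonneg (stw_e_pos h τ) (stw_w_nonneg h τ)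

theorem LossF_fR_le (h : W.Ok lam E C1 η) (J : ℕ) (τ : ℝ) :
    W.LossF E (fR N J) τ ≤ W.LossF E (uF N J) τ := by
  have h1 : W.LossF E (uF N J) τ = W.LossF E (phi N) τ + W.LossF E (fR N J) τ :=
    LossG_elim (phi N) (fR N J)
  rw [h1]
  linarith [LossF_nonneg h (phi N) τ]

theorem M4_nonneg (h : W.Ok lam E C1 η) (τ : ℝ) : 0 ≤ W.M4 E τ := by
  refine AvG_nonneg (laws h) (stw_e_pos h τ) fun l V hV => ?_
  exact Finset.sum_nonneg fun x _ => Finset.sum_nonneg fun y _ => mul_nonneg (mul_nonneg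
    (mul_nonneg (by linarith [hV x]) (by linarith [hV y])) (KK_nonneg _ _)) (sq_nonneg _)

theorem EM_nonneg (h : W.Ok lam E C1 η) {g : (Tor N → W.Λ) → Tor N → ℝ} (hg : ∀ l x, 0 ≤ g l x)
    (τ : ℝ) : 0 ≤ W.EM E g τ := by
  refine AvG_nonneg (laws h) (stw_e_pos h τ) fun l V hV => ?_
  exact Finset.sum_nonneg fun x _ => mul_nonneg (hg l x) (mm_pos (AT_symm N) hV x).le

/-- the static share of the truncated field -/
theorem share_fR (h : W.Ok lam E C1 η) (J : ℕ) (τ : ℝ) :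
    ShS W E (fR N J) τ ≤ 4 ^ J * W.EM E W.u τ := by
  have h1 : ShS W E (fR N J) τ ≤
      W.Av E τ (fun l V => 4 ^ J * ∑ x, W.u l x * mm (AT N) V x) := by
    refine AvG_mono (laws h) (stw_e_pos h τ) (fun l => ?_) (fun l => ?_) fun l V hV => ?_
    · exact H179.Adm.sum _ fun x _ => H179.Adm.const_mul _ (H179.Adm.sum _ fun k _ =>
        adm_Mf (AT_symm N) (fR N J k) x)
    · exact H179.Adm.const_mul _ (H179.Adm.sum _ fun x _ => H179.Adm.const_mul _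
        (adm_mm (AT_symm N) x))
    · rw [Finset.mul_sum]
      refine Finset.sum_le_sum fun x _ => ?_
      rw [mul_left_comm]
      refine mul_le_mul_of_nonneg_left ?_ (stw_u_nonneg h l x)
      rw [sum_Mf_eq, mm_eq (AT_symm N) hV, Finset.mul_sum]
      refine Finset.sum_le_sum fun a _ => ?_
      have h2 : 0 ≤ (-(V a).im) * KK (AT N) V x a :=
        mul_nonneg (by linarith [hV a]) (KK_nonneg _ _)
      rw [mul_comm ((4 : ℝ) ^ J)]
      refine mul_le_mul_of_nonneg_left ?_ h2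
      rw [fR_spec]
      exact P365T2.H37.hk_le_left (by positivity) (by linarith [dsq_nonneg a x])
  refine h1.trans (le_of_eq ?_)
  unfold StW.Av StW.EM
  exact AvG_const_mul _ _

/-! ### `bad` -/

theorem ErrX_nonneg (h : W.Ok lam E C1 η) (τ : ℝ) : 0 ≤ ErrX W E C1 τ := by
  unfold ErrX
  have h1 := Yg_nonneg h (uF N (nJ C1 W.S)) τ
  have h2 := EM_nonneg h (stw_u_nonneg h) τ
  have h3 := M4_nonneg h τ
  positivity

theorem BadV_eq_BadF {ι κ : Type*} [Fintype ι] [DecidableEq ι] [Fintype κ] {A : Matrix ι ι ℝ}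
    (hA : A.IsSymm) {V : ι → ℂ} (hV : ∀ x, (V x).im < 0) (F : κ → ι → ℝ) (w : ι → ℝ) :
    BadV A F (ZB lam A E w V) V = BadF lam A E F w V := by
  unfold BadV BadF
  exact Finset.sum_congr rfl fun z _ => eng_eq_Mf hA hV F z

theorem Av_congr (h : W.Ok lam E C1 η) (τ : ℝ) {G G' : (Tor N → W.Λ) → (Tor N → ℂ) → ℝ}
    (hG : ∀ l, ∀ V ∈ LH (Tor N), G l V = G' l V) : W.Av E τ G = W.Av E τ G' := by
  unfold StW.Av AvG Ex
  refine Finset.sum_congr rfl fun l _ => ?_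
  congr 1
  congr 1
  funext v
  exact hG l _ (WV_mem_LH (stw_e_pos h τ l) v)

/-- the part of 629's error used here -/
theorem errX_ge (h : W.Ok lam E C1 η) (τ : ℝ) :
    (W.Yg E (uF N (nJ C1 W.S)) τ + 16 ^ nJ C1 W.S * W.EM E W.u τ) / (N : ℝ) ^ 2 ≤
      ErrX W E C1 τ := by
  have h3 := M4_nonneg h τ
  have h7 : 0 ≤ W.M4 E τ / 4 ^ nJ C1 W.S / (N : ℝ) ^ 2 := by positivity
  have h8 : 0 ≤ 1 / |W.S| := by positivity
  have h9 : 0 ≤ 192 * (4 : ℝ) ^ nJ C1 W.S / (N : ℝ) := by positivity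
  unfold ErrX
  rw [add_div _ (W.M4 E τ / 4 ^ nJ C1 W.S)]
  linarith

theorem BadX_le (h : W.Ok lam E C1 η) (hlam : 0 < lam) (τ : ℝ) :
    BadX W lam E C1 τ ≤ (1 + CBE lam (bS lam) E) * ErrX W E C1 τ := by
  have hN := N2_pos (N := N)
  have hC := CBE_nonneg hlam E
  have hX := errX_ge h τ
  set J := nJ C1 W.S with hJ
  have h0 : (W.Av E τ fun l V => BadV (AT N) (fR N J) (ZX W lam E l V) V) =
      W.Av E τ fun l V => BadF lam (AT N) E (fR N J) (W.w l) V :=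
    Av_congr h τ fun l V hV => BadV_eq_BadF (AT_symm N) hV (fR N J) (W.w l)
  have h1 : (W.Av E τ fun l V => BadV (AT N) (fR N J) (ZX W lam E l V) V) ≤
      4 ^ J * W.EM E W.u τ + CBE lam (bS lam) E * W.Yg E (uF N J) τ := by
    rw [h0]
    exact (avBadF_le h hlam τ).trans (add_le_add (share_fR h J τ)
      (mul_le_mul_of_nonneg_left (Yg_fR_le h J τ) hC))
  have hu := EM_nonneg h (stw_u_nonneg h) τ
  have hY := Yg_nonneg h (uF N J) τ
  have h4 : (4 : ℝ) ^ J ≤ 16 ^ J := pow_le_pow_left₀ (by norm_num) (by norm_num) J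
  have h5 : (4 : ℝ) ^ J * W.EM E W.u τ ≤ 16 ^ J * W.EM E W.u τ :=
    mul_le_mul_of_nonneg_right h4 hu
  have h6 : 0 ≤ (16 : ℝ) ^ J * W.EM E W.u τ := by positivity
  refine le_trans ?_ (mul_le_mul_of_nonneg_left hX (by linarith))
  unfold BadX
  rw [← hJ, mul_div_assoc']
  refine div_le_div_of_nonneg_right (h1.trans ?_) hN.le
  nlinarith [mul_nonneg hC h6]

theorem BadX_nonneg (h : W.Ok lam E C1 η) (τ : ℝ) : 0 ≤ BadX W lam E C1 τ :=
  div_nonneg (AvG_nonneg (laws h) (stw_e_pos h τ) fun l V hV =>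
    BadV_nonneg (AT_symm N) hV _ _) N2_pos.le

theorem OmX_nonneg (h : W.Ok lam E C1 η) (θ ε τ : ℝ) : 0 ≤ OmX W lam E C1 θ ε τ :=
  div_nonneg (AvG_nonneg (laws h) (stw_e_pos h τ) fun l V hV =>
    OmV_nonneg (AT_symm N) hV _ (omX_nonneg h τ l) _ _ _) N2_pos.le

theorem SmX_nonneg (h : W.Ok lam E C1 η) {ε1 ε2 : ℝ} (h1 : 0 ≤ ε1) (h2 : 0 ≤ ε2) (τ : ℝ) :
    0 ≤ SmX W lam E C1 ε1 ε2 τ :=
  div_nonneg (AvG_nonneg (laws h) (stw_e_pos h τ) fun l V hV =>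
    SmV_nonneg (AT_symm N) hV _ _ h1 h2) N2_pos.le

theorem EnX_nonneg (h : W.Ok lam E C1 η) (τ : ℝ) : 0 ≤ EnX W E C1 τ :=
  div_nonneg (Phi_nonneg' h _ τ) N2_pos.le

/-! ### `det` -/

/-- **the deterministic static inequality, averaged** -/
theorem det_X (h : W.Ok lam E C1 η) (τ : ℝ) {θ δ ε1 ε2 : ℝ} (hθ : 0 < θ) (hδ : 0 < δ)
    (hε1 : 0 < ε1) (hε2 : 0 < ε2) :
    MobX W E C1 θ τ ≤ BadX W lam E C1 τ + 8 / θ * OmX W lam E C1 θ ε1 τ +
      1 / δ * OmX W lam E C1 θ ε2 τ +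
      4608 / θ ^ 2 * (SmX W lam E C1 ε1 ε2 τ + δ / ε1 * (EnX W E C1 τ / 4)) := by
  have hN := N2_pos (N := N)
  have hA := AT_symm N
  set J := nJ C1 W.S with hJ
  set F := fR N J with hF
  have hZ := fun l => measurableSet_ZX W lam E l
  -- admissibility
  have aB : ∀ l, H179.Adm fun V => BadV (AT N) F (ZX W lam E l V) V := fun l =>
    adm_BadV hA (hZ l) F
  have aO : ∀ ε l, H179.Adm fun V => OmV (AT N) F (omX W τ l) (ZX W lam E l V) θ ε V :=
    fun ε l => adm_OmV hA (hZ l) F (omX W τ l) θ ε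
  have aS : ∀ l, H179.Adm fun V => SmV (AT N) F (ZX W lam E l V) ε1 ε2 V := fun l =>
    adm_SmV hA (hZ l) F ε1 ε2
  have aE : H179.Adm fun V : Tor N → ℂ => ∑ k, En (AT N) V (F k) :=
    H179.Adm.sum _ fun k _ => adm_En hA (F k)
  have key : (W.Av E τ fun l V => MobV (AT N) F (omX W τ l) θ V) ≤
      (W.Av E τ fun l V => BadV (AT N) F (ZX W lam E l V) V) +
      8 / θ * (W.Av E τ fun l V => OmV (AT N) F (omX W τ l) (ZX W lam E l V) θ ε1 V) +
      1 / δ * (W.Av E τ fun l V => OmV (AT N) F (omX W τ l) (ZX W lam E l V) θ ε2 V) +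
      4608 / θ ^ 2 * ((W.Av E τ fun l V => SmV (AT N) F (ZX W lam E l V) ε1 ε2 V) +
        δ / ε1 * (W.Phi E F τ / 4)) := by
    have h1 : (W.Av E τ fun l V => MobV (AT N) F (omX W τ l) θ V) ≤
        W.Av E τ fun l V => ((BadV (AT N) F (ZX W lam E l V) V +
          8 / θ * OmV (AT N) F (omX W τ l) (ZX W lam E l V) θ ε1 V) +
          1 / δ * OmV (AT N) F (omX W τ l) (ZX W lam E l V) θ ε2 V) +
          (4608 / θ ^ 2 * SmV (AT N) F (ZX W lam E l V) ε1 ε2 V +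
            4608 / θ ^ 2 * (δ / ε1 / 4) * ∑ k, En (AT N) V (F k)) := by
      refine AvG_mono (laws h) (stw_e_pos h τ) (fun l => adm_MobV hA F _ θ) (fun l =>
        (((aB l).add ((aO ε1 l).const_mul _)).add ((aO ε2 l).const_mul _)).add
          (((aS l).const_mul _).add (aE.const_mul _))) fun l V hV => ?_
      refine (det_path hA hV F (omX_nonneg h τ l) (omX_le h τ l) (ZX W lam E l V) hθ hδ hε1
        hε2).trans (le_of_eq ?_)
      ring
    refine h1.trans (le_of_eq ?_)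
    unfold StW.Av
    rw [AvG_add (laws h) (stw_e_pos h τ) (fun l => ((aB l).add ((aO ε1 l).const_mul _)).add
        ((aO ε2 l).const_mul _)) (fun l => ((aS l).const_mul _).add (aE.const_mul _)),
      AvG_add (laws h) (stw_e_pos h τ) (fun l => (aB l).add ((aO ε1 l).const_mul _))
        (fun l => (aO ε2 l).const_mul _),
      AvG_add (laws h) (stw_e_pos h τ) (fun l => aB l) (fun l => (aO ε1 l).const_mul _),
      AvG_add (laws h) (stw_e_pos h τ) (fun l => (aS l).const_mul _) (fun l => aE.const_mul _),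
      AvG_const_mul, AvG_const_mul, AvG_const_mul, AvG_const_mul]
    unfold StW.Phi PhiG
    ring
  rw [MobX_eq h, div_le_iff₀ hN]
  refine key.trans ?_
  have hPhi : W.Phi E F τ ≤ W.Phi E (uF N J) τ := Phi_fR_le h J τ
  have e1 : (BadX W lam E C1 τ + 8 / θ * OmX W lam E C1 θ ε1 τ +
      1 / δ * OmX W lam E C1 θ ε2 τ +
      4608 / θ ^ 2 * (SmX W lam E C1 ε1 ε2 τ + δ / ε1 * (EnX W E C1 τ / 4))) * (N : ℝ) ^ 2 =
      (W.Av E τ fun l V => BadV (AT N) F (ZX W lam E l V) V) +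
      8 / θ * (W.Av E τ fun l V => OmV (AT N) F (omX W τ l) (ZX W lam E l V) θ ε1 V) +
      1 / δ * (W.Av E τ fun l V => OmV (AT N) F (omX W τ l) (ZX W lam E l V) θ ε2 V) +
      4608 / θ ^ 2 * ((W.Av E τ fun l V => SmV (AT N) F (ZX W lam E l V) ε1 ε2 V) +
        δ / ε1 * (W.Phi E (uF N J) τ / 4)) := by
    unfold BadX OmX SmX EnX
    rw [← hJ, ← hF]
    have hN0 := hN.ne'
    generalize (N : ℝ) ^ 2 = n2 at hN0 ⊢
    field_simp
  rw [e1]
  have h2 : δ / ε1 * (W.Phi E F τ / 4) ≤ δ / ε1 * (W.Phi E (uF N J) τ / 4) :=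
    mul_le_mul_of_nonneg_left (by linarith) (by positivity)
  have h3 : 0 ≤ 4608 / θ ^ 2 := by positivity
  have h4 := mul_le_mul_of_nonneg_left h2 h3
  linarith

/-- constant of `det` -/
noncomputable def CDet (lam E θ : ℝ) : ℝ :=
  2 + CBE lam (bS lam) E + 8 / θ + 4608 / θ ^ 2

theorem CDet_pos (hlam : 0 < lam) (E : ℝ) {θ : ℝ} (hθ : 0 < θ) : 0 < CDet lam E θ := by
  have := CBE_nonneg hlam E
  unfold CDet
  positivity

/-- **`det` of `OneFacts2`**, for `Mob = MobX + Er` and any error `Er ≥ ErrX` -/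
theorem det_fact (h : W.Ok lam E C1 η) (hlam : 0 < lam) (τ : ℝ) {θ δ ε1 ε2 : ℝ} (hθ : 0 < θ)
    (hδ : 0 < δ) (hε1 : 0 < ε1) (hε2 : 0 < ε2) {Er : ℝ} (hEr : ErrX W E C1 τ ≤ Er) :
    MobX W E C1 θ τ + Er ≤ CDet lam E θ * (SmX W lam E C1 ε1 ε2 τ +
      δ / ε1 * EnX W E C1 τ + Er + OmX W lam E C1 θ ε1 τ + OmX W lam E C1 θ ε2 τ / δ) := by
  have h1 := det_X h τ (θ := θ) hθ hδ hε1 hε2
  have hC := CBE_nonneg hlam E
  have h2 : BadX W lam E C1 τ ≤ (1 + CBE lam (bS lam) E) * Er :=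
    (BadX_le h hlam τ).trans (mul_le_mul_of_nonneg_left hEr (by linarith))
  have hE : 0 ≤ Er := (ErrX_nonneg h τ).trans hEr
  have hO1 := OmX_nonneg h θ ε1 τ
  have hO2 : 0 ≤ OmX W lam E C1 θ ε2 τ / δ := div_nonneg (OmX_nonneg h θ ε2 τ) hδ.le
  have hS := SmX_nonneg h hε1.le hε2.le τ
  have hD : 0 ≤ δ / ε1 * EnX W E C1 τ := mul_nonneg (by positivity) (EnX_nonneg h τ)
  have h8 : 0 ≤ 8 / θ := by positivity
  have h46 : 0 ≤ 4608 / θ ^ 2 := by positivity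
  have e1 : 1 / δ * OmX W lam E C1 θ ε2 τ = OmX W lam E C1 θ ε2 τ / δ := by ring
  rw [e1] at h1
  have e2 : δ / ε1 * (EnX W E C1 τ / 4) = (δ / ε1 * EnX W E C1 τ) / 4 := by ring
  rw [e2] at h1
  unfold CDet
  generalize BadX W lam E C1 τ = B at h1 h2
  generalize OmX W lam E C1 θ ε1 τ = O1 at h1 hO1 ⊢
  generalize OmX W lam E C1 θ ε2 τ / δ = O2 at h1 hO2 ⊢
  generalize SmX W lam E C1 ε1 ε2 τ = S at h1 hS ⊢
  generalize δ / ε1 * EnX W E C1 τ = D at h1 hD ⊢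
  generalize CBE lam (bS lam) E = cb at h2 hC ⊢
  generalize 8 / θ = a8 at h1 h8 ⊢
  generalize 4608 / θ ^ 2 = a4 at h1 h46 ⊢
  generalize MobX W E C1 θ τ = M at h1 ⊢
  have p1 := mul_nonneg hC hS
  have p2 := mul_nonneg hC hD
  have p3 := mul_nonneg hC hO1
  have p4 := mul_nonneg hC hO2
  have p5 := mul_nonneg h8 hS
  have p6 := mul_nonneg h8 hD
  have p7 := mul_nonneg h8 hE
  have p8 := mul_nonneg h8 hO2
  have p9 := mul_nonneg h46 hE
  have p10 := mul_nonneg h46 hO1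
  have p11 := mul_nonneg h46 hO2
  have p12 := mul_nonneg h46 hD
  have e3 : (2 + cb + a8 + a4) * (S + D + Er + O1 + O2) =
      2 * S + 2 * D + 2 * Er + 2 * O1 + 2 * O2 + cb * S + cb * D + cb * Er + cb * O1 + cb * O2 +
      a8 * S + a8 * D + a8 * Er + a8 * O1 + a8 * O2 + a4 * S + a4 * D + a4 * Er + a4 * O1 +
      a4 * O2 := by ring
  rw [e3]
  have e4 : (1 + cb) * Er = Er + cb * Er := by ring
  rw [e4] at h2
  have e5 : a4 * (S + D / 4) = a4 * S + a4 * D / 4 := by ring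
  rw [e5] at h1
  linarith

end stw

end P365T2.H259
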