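import Vale.Agent.P365.T2.H259.One
import Vale.Agent.P365.T2.H863.Res

/-!
# P365-T2, X-ONEASM: `OneX` from the weak content fact `OmF` alone (helper259; `res` = 863)
-/

set_option linter.all false

namespace P365T2.H259

open P365T2.H213 P365T2.X629 P365T2.H963

/-- `ResF` is a theorem (863 over 968, 216) -/
theorem resF {lam E C1 : ℝ} (hlam : 0 < lam) : ResF lam E C1 := by
  intro ε1 h1 h1' ε2 h2 h2'
  obtain ⟨C, hC, h⟩ := P365T2.H863.res_Sta (E := E) (C1 := C1) hlam 1 one_pos le_rfl ε1 h1 h1'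
    ε2 h2 h2'
  exact ⟨C, hC, fun N _ W hW τ hτ => h ⟨N, W, hW, τ, hτ⟩⟩

/-- **`OneX`** from the weak content fact -/
theorem oneX_of_om {lam E C1 : ℝ} (hlam : 0 < lam) (hom : OmF lam E C1) : OneX lam E C1 :=
  oneX_of hlam (resF hlam) hom

end P365T2.H259
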